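import Vale.Agent.P181.TB.Defs

set_option autoImplicit false

/-!
# P181, TB4: the lower bound from the blocks
-/

open MvPolynomial

namespace Vale.Agent.P181.TB.H755

open Vale.Agent.P181.H280 (plethMult)
open Vale.Agent.P181.TL (KK dn2)

theorem sum_bal (a t : ℕ) (ha : 0 < a) :
    ∑ i : Fin a, (t / a + if (i : ℕ) < t % a then 1 else 0) = t := by
  rw [Finset.sum_add_distrib, Finset.sum_const, Finset.card_univ, Fintype.card_fin, smul_eq_mul]
  have h : ∑ i : Fin a, (if (i : ℕ) < t % a then 1 else 0) = t % a := by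
    rw [Fin.sum_univ_eq_sum_range (fun i => if i < t % a then 1 else 0) a, ← Finset.card_filter]
    have : (Finset.range a).filter (fun i => i < t % a) = Finset.range (t % a) := by
      ext i
      simp only [Finset.mem_filter, Finset.mem_range]
      exact ⟨fun h => h.2, fun h => ⟨h.trans (Nat.mod_lt _ ha), h⟩⟩
    rw [this, Finset.card_range]
  rw [h]
  exact Nat.div_add_mod t a

theorem lowTB (hRef : TL.RefB) (hKey : KeyPos) (hDes : DesTB) (hLift : LiftTB) : LowTB := by
  intro a b k q m X lam f hsum hq ha hm hX h1 hf h2 h3 h4 h5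
  have ha0 : 0 < a := by omega
  have hq0 : 0 < q := by omega
  obtain ⟨KS, k1, k2, k3, k4⟩ := hKey a q m X (dn2 lam) ha0 hq (by omega) hX h1
  have hs : lam 0 + lam 1 + dn2 lam = a * b := by
    rw [← hsum, Fin.sum_univ_succ, Fin.sum_univ_succ, ← add_assoc]
    rfl
  have ht : dn2 lam ≤ q * a * (2 * (dn2 lam / a / q) + q) := by
    have e1 := Nat.lt_mul_div_succ (dn2 lam) ha0
    have e2 := Nat.lt_mul_div_succ (dn2 lam / a) hq0
    calc dn2 lam ≤ a * (dn2 lam / a + 1) := e1.le
      _ ≤ a * (q * (dn2 lam / a / q + 1)) := Nat.mul_le_mul_left _ e2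
      _ = q * a * (dn2 lam / a / q + 1) := by ring
      _ ≤ _ := Nat.mul_le_mul_left _ (by omega)
  obtain ⟨N₁, N₂, al, u, f₁, v, f₂, d1, d2, d3⟩ := hDes a b q m (dn2 lam) (lam 0 - lam 1)
    (2 * (dn2 lam / a / q) + q) hq ha hm (by omega) (by omega) (by omega) ht h4 h5
  have hb : Fintype.card (Fin a × Fin q) + Fintype.card (Fin N₁) + Fintype.card (Fin N₂) = b := by
    rw [Fintype.card_prod, Fintype.card_fin, Fintype.card_fin, Fintype.card_fin, Fintype.card_fin]
    exact d1
  have hcs : ∀ c ∈ KS, ∑ j, c j = dn2 lam := fun c hc => by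
    rw [Fintype.sum_prod_type]
    calc ∑ i : Fin a, ∑ r : Fin q, c (i, r)
        = ∑ i : Fin a, (dn2 lam / a + if (i : ℕ) < dn2 lam % a then 1 else 0) :=
          Finset.sum_congr rfl fun i _ => k1 c hc i
      _ = _ := sum_bal a _ ha0
  have hLif := hLift k a (lam 0 - lam 1) (lam 1) (Fin a × Fin q) (Fin N₁) (Fin N₂) al u v f₁ f₂
    (fun i => lam i.succ.succ) KS (fun c hc => d3 c (k2 c hc) (hcs c hc)) hcs
    (fun c hc c' hc' j j' hs hne => k3 c hc c' hc' j j' (d2 j j' hs).1 (d2 j j' hs).2 hne)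
    (by
      rw [hb]
      change 2 * lam 1 + (lam 0 - lam 1) + dn2 lam = a * b
      omega)
  have hlam : (Fin.cons (lam 1 + (lam 0 - lam 1))
      (Fin.cons (lam 1) fun i => lam i.succ.succ : Fin (k + 1) → ℕ) : Fin (k + 2) → ℕ) = lam := by
    funext i
    refine Fin.cases ?_ (fun j => Fin.cases ?_ (fun l => ?_) j) i
    · change lam 1 + (lam 0 - lam 1) = lam 0
      omega
    · rfl
    · rfl
  rw [hb, hlam] at hLif
  refine le_trans (Nat.mul_le_mul_right _ k4) (le_trans ?_ hLif)
  rw [← smul_eq_mul, ← Finset.sum_const]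
  refine Finset.sum_le_sum fun c hc => hRef k (Fin a) (Fin q) f c _ fun i => ?_
  rw [k1 c hc i, hf i]

end Vale.Agent.P181.TB.H755
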